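import Vale.Agent.P180.R2.H47.Red

set_option linter.all false

/-!
P180: the number of simple factors is bounded by the order of the defect group.
-/

namespace Vale.Agent.P180.R2.H47

open Vale.Agent.P180 Vale.Agent.P180.H768.Gd
open Vale.Agent.P180.H768 hiding pull mem_pull exists_factor Lay mk_mem comm_mem

open scoped Nat commutatorElement

universe u

variable {k : Type u} [Field k] {p n : ℕ} [Fact p.Prime] [CharP k p]

theorem count {G : Type} [Group G] [Finite G]
    {A : Subgroup G} [A.Normal] {Z : Subgroup G} (hZA : Z ≤ A)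
    (hZ : ∀ z ∈ Z, ∀ g, z * g = g * z) (hpZ : ¬ p ∣ Nat.card Z)
    {D : Subgroup G} {a b : MonoidAlgebra k G} (hb : IsBlock b)
    (ha : a ∈ Fix (cj k G) D)
    (hba : b = tr (cj k G) D ⊤ a) (hDn : Nat.card D ≤ n)
    (hST : STab b) (hNR : NRed p Z A b)
    (𝒮 : Set (Subgroup G))
    (h1 : ∀ S ∈ 𝒮, Z ≤ S ∧ S ≤ A ∧ S ≠ Z ∧ (∀ x ∈ S, (∀ y ∈ S, x * y = y * x) → x ∈ Z))
    (h2 : ∀ S ∈ 𝒮, ∀ S' ∈ 𝒮, S ≠ S' → ∀ x ∈ S, ∀ y ∈ S', x * y = y * x)
    (h3 : ∀ S ∈ 𝒮, ∀ g : G, S.map (MulAut.conj g).toMonoidHom ∈ 𝒮) :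
    Nat.card 𝒮 ≤ n := by
  classical
  have hb1 := isBlock_iff.mp hb
  have hbF : b ∈ Fix (cj k G) ⊤ := hb1.mem.2
  have hbc : ∀ x, x * b = b * x := fun x => commute_of_mem (SubAlg_top x) hbF
  have hWn : Z.Normal := by
    constructor
    intro z hz g
    rw [← hZ z hz g, mul_inv_cancel_right]
    exact hz
  -- the subgroup `E`
  set E := Z ⊔ sSup 𝒮 with hE
  have hSE : ∀ S ∈ 𝒮, S ≤ E := fun S hS => (le_sSup hS).trans le_sup_right
  have hsupn : ∀ 𝒯 : Set (Subgroup G),
      (∀ S ∈ 𝒯, ∀ g : G, S.map (MulAut.conj g).toMonoidHom ∈ 𝒯) → (Z ⊔ sSup 𝒯).Normal := by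
    intro 𝒯 h𝒯
    have h5 : (sSup 𝒯).Normal := by
      constructor
      intro x hx g
      have h6 : sSup 𝒯 ≤ (sSup 𝒯).comap (MulAut.conj g).toMonoidHom := by
        refine sSup_le fun S hS => ?_
        rw [← Subgroup.map_le_iff_le_comap]
        exact le_sSup (h𝒯 S hS g)
      exact h6 hx
    infer_instance
  have hEn : E.Normal := hsupn 𝒮 h3
  obtain ⟨e, he, hbe⟩ := exists_isPrimIn (ZAlg k E) (by exact ZAlg_comm) hb.ne_zero
  have hest := hST E hEn e he hbe
  have hbee : b * e = b := mul_stable_eq hb1 he hest hbe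
  obtain ⟨x, a', ha'E, ha'F, hea'⟩ := covering he hb.idem (by rwa [hbc e]) ha hba
  set R := E ⊓ conjS x D with hR
  have hRcard : Nat.card R ≤ n := by
    refine le_trans ?_ hDn
    have h5 : Nat.card (conjS x D) = Nat.card D :=
      Nat.card_congr (D.equivMapOfInjective _ (MulAut.conj x).injective).symm.toEquiv
    rw [← h5]
    exact Nat.card_le_card_of_injective _ (Subgroup.inclusion_injective inf_le_right)
  -- blocks of `S` are fixed by `E`
  have hfix : ∀ S ∈ 𝒮, ∀ f : MonoidAlgebra k G, IsBlockOf S f → f ∈ Fix (cj k G) E := by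
    intro S hS f hf
    have h5 : E ≤ stabE f := by
      refine sup_le ?_ (sSup_le ?_)
      · exact (h1 S hS).1.trans (le_stabE hf)
      · intro S' hS'
        by_cases hSS : S = S'
        · rw [← hSS]; exact le_stabE hf
        · intro y hy
          rw [mem_stabE]
          exact cj_eq_self_of_commute hf.mem.1 fun s hs => (h2 S hS S' hS' hSS s hs y hy).symm
    exact fun g hg => h5 hg
  -- normality of `S` in `E`
  have hSinv : ∀ S ∈ 𝒮, ∀ y ∈ E, ∀ s ∈ S, y * s * y⁻¹ ∈ S := by
    intro S hS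
    have h5 : E ≤ Subgroup.normalizer (S : Set G) := by
      refine sup_le ?_ (sSup_le ?_)
      · exact (h1 S hS).1.trans Subgroup.le_normalizer
      · intro S' hS'
        by_cases hSS : S = S'
        · rw [← hSS]; exact Subgroup.le_normalizer
        · intro y hy
          rw [Subgroup.mem_normalizer_iff]
          intro s
          have h6 := h2 S hS S' hS' hSS
          constructor
          · intro hs
            rw [← h6 s hs y hy, mul_inv_cancel_right]
            exact hs
          · intro hs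
            have h7 := h6 _ hs y hy
            have h8 : y * s * y⁻¹ = s := by
              calc y * s * y⁻¹ = y⁻¹ * (y * (y * s * y⁻¹)) := by group
                _ = y⁻¹ * (y * s * y⁻¹ * y) := by rw [h7]
                _ = s := by group
            rwa [h8] at hs
    intro y hy s hs
    exact (Subgroup.mem_normalizer_iff.mp (h5 hy) s).mp hs
  -- the set `J`
  let J : Set (Subgroup G) := {S | S ∈ 𝒮 ∧ ∃ z ∈ SubAlg k S, z ∈ Fix (cj k G) Z ∧
    tr (cj k G) Z S z * e = e}
  have hconjZ : ∀ g : G, conjS g Z = Z := by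
    intro g
    ext y
    rw [mem_conjS]
    constructor
    · intro hy
      have := hWn.conj_mem _ hy g
      simpa [mul_assoc] using this
    · intro hy
      have := hWn.conj_mem _ hy g⁻¹
      simpa [mul_assoc] using this
  have hJ : ∀ S, S ∉ J := by
    intro S0 hS0
    have hJconj : ∀ S ∈ J, ∀ g : G, S.map (MulAut.conj g).toMonoidHom ∈ J := by
      rintro S ⟨hS, z, hz, hzZ, hze⟩ g
      refine ⟨h3 S hS g, cj k G g z, ?_, ?_, ?_⟩
      · exact SuppIn.conj hz g fun s hs => mem_conjS.mpr (by simpa [mul_assoc] using hs)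
      · have := conj_mem_Fix hzZ g (H' := Z) fun h hh => by
          simpa using hWn.conj_mem h hh g⁻¹
        exact this
      · have h5 := cj_tr g (K := S) hzZ
        rw [hconjZ] at h5
        change tr (cj k G) Z (conjS g S) (cj k G g z) * e = e
        rw [← h5]
        conv_lhs => rhs; rw [← hest g]
        rw [← map_mul, hze, hest]
    have hJfin : J.Finite := Set.toFinite J
    let s : Finset (Subgroup G) := hJfin.toFinset
    have hmem : ∀ {S}, S ∈ s ↔ S ∈ J := hJfin.mem_toFinset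
    have hsup : s.sup id = sSup J := by
      rw [Finset.sup_id_eq_sSup, hJfin.coe_toFinset]
    choose! z hz using fun (S : Subgroup G) (hS : S ∈ J) => hS.2
    obtain ⟨z', hz', hz'Z, hz'e⟩ := exists_prod_tr (k := k) (id : Subgroup G → Subgroup G)
      (W := Z) e z s
      (fun S hS => (h1 S (hmem.mp hS).1).1)
      (fun S hS => (h1 S (hmem.mp hS).1).2.2.2)
      (fun S hS S' hS' hne => h2 S (hmem.mp hS).1 S' (hmem.mp hS').1 hne)
      (fun S hS w hw x _ => hZ w hw x)
      (fun S hS => (hz S (hmem.mp hS)).1)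
      (fun S hS => (hz S (hmem.mp hS)).2.1)
      (fun S hS => (hz S (hmem.mp hS)).2.2)
    rw [hsup] at hz' hz'e
    set N := Z ⊔ sSup J with hN
    have hNn : N.Normal := hsupn J hJconj
    have hZN : Z ≤ N := le_sup_left
    obtain ⟨f, hf, hbf⟩ := exists_isPrimIn (ZAlg k N) (by exact ZAlg_comm) hb.ne_zero
    have hz'b : tr (cj k G) Z N z' * b = b := by
      conv_lhs => rw [← hbee, ← hbc, ← mul_assoc, hz'e]
      rw [hbc, hbee]
    obtain ⟨z2, hz2, hz2Z, hfz2⟩ := block_tr hZN hf (by rwa [hbc]) hz' hz'Z hz'b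
    have hrelZ : (⊥ : Subgroup G).relIndex Z = Nat.card Z := Subgroup.relIndex_bot_left Z
    have hnd : ¬ p ∣ (⊥ : Subgroup G).relIndex Z := by rw [hrelZ]; exact hpZ
    have h5 := eq_tr_of_not_dvd p hnd hz2Z
    have hcard := hNR N ⊥ hNn inferInstance hZN
      (sup_le hZA (sSup_le fun S hS => (h1 S hS.1).2.1)) bot_le IsPGroup.of_bot
      (fun y hy x _ => by
        rw [Subgroup.mem_bot] at hy
        rw [hy, one_mul, mul_one]) f hf hbf
      ⟨_, Subalgebra.smul_mem _ hz2 _, Subalgebra.smul_mem _ (Fix_mono _ bot_le hz2Z) _, by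
        rw [hfz2]
        conv_lhs => rw [h5]
        rw [tr_tr (Subalgebra.smul_mem _ (Fix_mono _ bot_le hz2Z) _) bot_le hZN]⟩
    rw [Subgroup.card_bot, mul_one] at hcard
    have hNZ : Z = N := Subgroup.eq_of_le_of_card_ge hZN hcard.le
    apply (h1 S0 hS0.1).2.2.1
    refine le_antisymm ?_ (h1 S0 hS0.1).1
    rw [hNZ]
    exact (le_sSup hS0).trans le_sup_right
  -- the elements `r_S`
  have hr : ∀ S ∈ 𝒮, ∃ r ∈ R, r ∈ S ∧ r ∉ Z := by
    intro S hS
    obtain ⟨f, hf, hef⟩ := exists_isPrimIn (ZAlg k S) (by exact ZAlg_comm) he.ne_zero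
    have hfE := hfix S hS f hf
    have hfe : f * e = e := mul_block_eq (hSE S hS) hf hfE he hef
    obtain ⟨y, hy, z, hz, hzF, hfz⟩ := covering_rel (hSE S hS) inf_le_left (hSinv S hS) hf
      he.idem (by rw [hfe]; exact he.ne_zero) ha'E ha'F hea'
    by_contra hcon
    push Not at hcon
    have hle : S ⊓ conjS y R ≤ Z := by
      intro r hr
      obtain ⟨hr1, hr2⟩ := Subgroup.mem_inf.mp hr
      rw [mem_conjS] at hr2
      have h5 : y⁻¹ * r * y ∈ S := by
        have := hSinv S hS y⁻¹ (E.inv_mem hy) r hr1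
        rwa [inv_inv] at this
      have h6 := hcon _ hr2 h5
      have := hWn.conj_mem _ h6 y
      simpa [mul_assoc] using this
    apply hJ S
    refine ⟨hS, tr (cj k G) (S ⊓ conjS y R) Z z, tr_mem_SubAlg (h1 S hS).1 hz, tr_mem_Fix hzF, ?_⟩
    rw [tr_tr hzF hle (h1 S hS).1, ← hfz, hfe]
  choose! r hr1 hr2 hr3 using hr
  refine le_trans (Nat.card_le_card_of_injective
    (fun S : 𝒮 => (⟨r S.1, hr1 S.1 S.2⟩ : R)) ?_) hRcard
  rintro ⟨S, hS⟩ ⟨S', hS'⟩ hSS
  have h5 : r S = r S' := congrArg Subtype.val hSS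
  by_contra hne
  have hne' : S ≠ S' := fun h => hne (Subtype.ext h)
  apply hr3 S hS
  refine (h1 S hS).2.2.2 _ (hr2 S hS) fun y hy => ?_
  rw [h5]
  exact (h2 S hS S' hS' hne' y hy _ (hr2 S' hS')).symm

variable {Q : ∀ (S : Type) [Group S], Prop}

theorem simps_conj (hQ : IsoInv Q) {G : Type} [Group G] [Finite G] {X : Subgroup G}
    [hXn : X.Normal] {S : Subgroup G} (hS : S ∈ simps Q X) (g : G) :
    S.map (MulAut.conj g).toMonoidHom ∈ simps Q X := by
  have h1 := simps_map hQ (MulAut.conj g).toMonoidHom X (fun x _ hx => (MulAut.conj g).injective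
    (by rw [map_one]; exact hx)) hS
  have h2 : X.map (MulAut.conj g).toMonoidHom = X := by
    ext x
    constructor
    · rintro ⟨y, hy, rfl⟩
      exact hXn.conj_mem y hy g
    · intro hx
      refine ⟨g⁻¹ * x * g, ?_, ?_⟩
      · have := hXn.conj_mem x hx g⁻¹
        rwa [inv_inv] at this
      · change g * (g⁻¹ * x * g) * g⁻¹ = x
        group
  rwa [h2] at h1

theorem card_simps_le (hQ : IsoInv Q) {j m : ℕ} {G : Type} [Group G] [Finite G]
    {Z X A D : Subgroup G} {a b : MonoidAlgebra k G} (hs : St Q p n m j Z X A D a b)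
    (hST : STab b) (hNR : NRed p Z A b) : Nat.card (simps Q X) ≤ n := by
  have hAn := hs.An
  have hXn := hs.Xn
  have hmem : ∀ {S T : Subgroup G} {x : G}, x ∈ Z ⊔ S → ∃ z ∈ Z, ∃ s ∈ S, z * s = x := by
    intro S T x hx
    exact mem_sup_of_commute (fun z hz s _ => hs.Zc z hz s) hx
  have hinj : Function.Injective (fun S : simps Q X => (⟨Z ⊔ S.1, S, S.2, rfl⟩ :
      (fun S => Z ⊔ S) '' simps Q X)) := by
    rintro ⟨S, hS⟩ ⟨S', hS'⟩ h
    have h1 : Z ⊔ S = Z ⊔ S' := congrArg Subtype.val h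
    by_contra hne
    have hne' : S ≠ S' := fun h => hne (Subtype.ext h)
    apply hS.2.2.2.1
    intro x hx y hy
    have hx' : x ∈ Z ⊔ S' := by rw [← h1]; exact (le_sup_right (a := Z)) hx
    obtain ⟨z, hz, s, hs', rfl⟩ := hmem (T := X) hx'
    have h2 : y * s = s * y := simps_comm hS hS' hne' hy hs'
    calc z * s * y = z * (s * y) := by group
      _ = z * (y * s) := by rw [h2]
      _ = (z * y) * s := by group
      _ = (y * z) * s := by rw [hs.Zc z hz y]
      _ = y * (z * s) := by group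
  refine (Nat.card_le_card_of_injective _ hinj).trans ?_
  refine count hs.ZA hs.Zc hs.Zp hs.hb hs.ha hs.hba hs.Dn hST hNR _ ?_ ?_ ?_
  · rintro _ ⟨S, hS, rfl⟩
    refine ⟨le_sup_left, sup_le hs.ZA (hS.1.trans hs.XA), ?_, ?_⟩
    · intro h
      apply hS.2.2.2.1
      intro x hx y _
      have h1 : x ∈ Z := by
        rw [← show Z ⊔ S = Z from h]
        exact (le_sup_right (a := Z)) hx
      exact hs.Zc x h1 y
    · intro x hx hc
      obtain ⟨z, hz, s, hs', rfl⟩ := hmem (T := X) hx
      have h1 : s = 1 := by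
        apply simps_center hS hs'
        intro y hy
        have h2 := hc y ((le_sup_right (a := Z)) hy)
        have h3 : z * (s * y) = z * (y * s) := by
          calc z * (s * y) = z * s * y := by group
            _ = y * (z * s) := h2
            _ = (y * z) * s := by group
            _ = (z * y) * s := by rw [hs.Zc z hz y]
            _ = z * (y * s) := by group
        exact mul_left_cancel h3
      rw [h1, mul_one]
      exact hz
  · rintro _ ⟨S, hS, rfl⟩ _ ⟨S', hS', rfl⟩ hne x hx y hy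
    have hne' : S ≠ S' := fun h => hne (by rw [h])
    obtain ⟨z, hz, s, hs1, rfl⟩ := hmem (T := X) hx
    obtain ⟨z', hz', s', hs2, rfl⟩ := hmem (T := X) hy
    have h2 : s * s' = s' * s := simps_comm hS hS' hne' hs1 hs2
    calc z * s * (z' * s') = z * (s * z') * s' := by group
      _ = z * (z' * s) * s' := by rw [hs.Zc z' hz' s]
      _ = (z * z') * (s * s') := by group
      _ = (z' * z) * (s' * s) := by rw [h2, hs.Zc z hz z']
      _ = z' * (z * s') * s := by group
      _ = z' * (s' * z) * s := by rw [hs.Zc z hz s']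
      _ = z' * s' * (z * s) := by group
  · rintro _ ⟨S, hS, rfl⟩ g
    refine ⟨_, simps_conj hQ hS g, ?_⟩
    change Z ⊔ S.map (MulAut.conj g).toMonoidHom = (Z ⊔ S).map (MulAut.conj g).toMonoidHom
    rw [Subgroup.map_sup]
    congr 1
    ext z
    constructor
    · intro hz
      refine ⟨z, hz, ?_⟩
      change g * z * g⁻¹ = z
      rw [← hs.Zc z hz g, mul_inv_cancel_right]
    · rintro ⟨z', hz', rfl⟩
      change g * z' * g⁻¹ ∈ Z
      rw [← hs.Zc z' hz' g, mul_inv_cancel_right]
      exact hz'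

end Vale.Agent.P180.R2.H47
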