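import Vale.Agent.P180.Bdl.B2

/-!
P180: the finite twisted group contains every element of norm one.
-/

namespace Vale.Agent.P180.R2.H47

open Vale.Agent.P180

universe u v w

section Twisted

variable {k : Type v} [Field k] {E : Type u} [Ring E] [Algebra k E]

theorem twisted_group_ext [IsAlgClosed k] [Nontrivial E] (Γ : Subgroup Eˣ)
    (hscal : ∀ c : kˣ, scal k E c ∈ Γ) {ι : Type w} [Fintype ι]
    (l : ι → Eˣ) (hl : ∀ i, l i ∈ Γ) (B : Module.Basis ι k E) (hB : ∀ i, B i = (l i : E))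
    (hΓ : ∀ γ ∈ Γ, ∃ (c : kˣ) (i : ι), γ = scal k E c * l i) :
    ∃ (H : Type) (_ : Group H) (_ : Finite H) (φ : H →* Eˣ) (r : ι → H)
      (B' : Module.Basis ι k E),
      Function.Injective φ ∧ (∀ h, φ h ∈ Γ) ∧ (∀ i, B' i = (φ (r i) : E)) ∧
      (∀ h, ∃ (c : kˣ) (i : ι), φ h = scal k E c * φ (r i)) ∧
      (∀ i, ∃ c : kˣ, φ (r i) = scal k E c * l i) ∧
      Nat.card H ≤ Fintype.card ι ^ 2 ∧
      ∀ γ ∈ Γ, normU k E γ = 1 → ∃ h, φ h = γ := by
  classical
  have hne : Nonempty ι := B.index_nonempty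
  have hn : 0 < Fintype.card ι := Fintype.card_pos
  have h1 : ∀ i, ∃ c : kˣ, normU k E (scal k E c * l i) = 1 := by
    intro i
    obtain ⟨d, hd⟩ := exists_unit_pow_eq (k := k) hn (normU k E (l i))⁻¹
    refine ⟨d, ?_⟩
    rw [map_mul, normU_scal B, hd, inv_mul_cancel]
  choose c hc using h1
  let H₀ : Subgroup Eˣ := Γ ⊓ (normU k E).ker
  let L : ι → H₀ := fun i => ⟨scal k E (c i) * l i, Γ.mul_mem (hscal _) (hl i), hc i⟩
  have h2 : ∀ h : H₀, ∃ (i : ι) (t : rootsOfUnity (Fintype.card ι) k),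
      (h : Eˣ) = scal k E (t : kˣ) * L i := by
    intro h
    obtain ⟨a, i, hai⟩ := hΓ h h.2.1
    refine ⟨i, ⟨a * (c i)⁻¹, ?_⟩, ?_⟩
    · rw [mem_rootsOfUnity, mul_pow, ← normU_scal B, inv_pow, ← normU_scal B]
      have h3 : normU k E (h : Eˣ) = 1 := h.2.2
      have h4 := hc i
      rw [hai, map_mul] at h3
      rw [map_mul] at h4
      rw [← div_eq_mul_inv, div_eq_one]
      exact mul_right_cancel (h3.trans h4.symm)
    · change (h : Eˣ) = scal k E (a * (c i)⁻¹) * (scal k E (c i) * l i)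
      rw [hai, map_mul, map_inv]
      group
  choose ix t ht using h2
  have hinj : Function.Injective fun h : H₀ => (ix h, t h) := by
    intro a b hab
    simp only [Prod.mk.injEq] at hab
    apply Subtype.ext
    rw [ht a, ht b, hab.1, hab.2]
  have : NeZero (Fintype.card ι) := ⟨hn.ne'⟩
  have hfin : Finite H₀ := Finite.of_injective _ hinj
  have hcard : Nat.card H₀ ≤ Fintype.card ι ^ 2 := by
    refine (Nat.card_le_card_of_injective _ hinj).trans ?_
    rw [Nat.card_prod, Nat.card_eq_fintype_card, pow_two]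
    exact Nat.mul_le_mul_left _ (card_rootsOfUnity k (Fintype.card ι))
  obtain ⟨H, hG, hF, ⟨e⟩⟩ := Finite.exists_type_univ_nonempty_mulEquiv.{u, 0} H₀
  have hLl : ∀ i, ((L i : H₀) : Eˣ) = scal k E (c i) * l i := fun i => rfl
  refine ⟨H, hG, Finite.of_fintype H, H₀.subtype.comp e.symm.toMonoidHom, fun i => e (L i),
    B.unitsSMul c, ?_, ?_, ?_, ?_, ?_, ?_, ?_⟩
  · exact Subtype.val_injective.comp e.symm.injective
  · intro h
    exact (e.symm h).2.1
  · intro i
    rw [Module.Basis.unitsSMul_apply, hB]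
    simp only [MonoidHom.comp_apply, MulEquiv.coe_toMonoidHom, MulEquiv.symm_apply_apply,
      Subgroup.coe_subtype]
    rw [hLl, scal_mul_val]
    rfl
  · intro h
    refine ⟨t (e.symm h), ix (e.symm h), ?_⟩
    simp only [MonoidHom.comp_apply, MulEquiv.coe_toMonoidHom, MulEquiv.symm_apply_apply,
      Subgroup.coe_subtype]
    exact ht _
  · intro i
    refine ⟨c i, ?_⟩
    simp only [MonoidHom.comp_apply, MulEquiv.coe_toMonoidHom, MulEquiv.symm_apply_apply,
      Subgroup.coe_subtype]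
    rfl
  · rw [← Nat.card_congr e.toEquiv]
    exact hcard
  · intro γ hγ hγ1
    refine ⟨e ⟨γ, hγ, hγ1⟩, ?_⟩
    simp only [MonoidHom.comp_apply, MulEquiv.coe_toMonoidHom, MulEquiv.symm_apply_apply,
      Subgroup.coe_subtype]

end Twisted

end Vale.Agent.P180.R2.H47
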